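import Vale.Agent.P160R.Five.Defs

/-!
# One step of the row process
-/

namespace Vale.Agent.P160R.Five

open Matrix Module Finset
open scoped Classical

set_option linter.unusedSectionVars false
set_option linter.unusedFintypeInType false
set_option linter.unusedDecidableInType false

variable {ι κ μ : Type} [Fintype ι] [DecidableEq ι] [Fintype κ] [DecidableEq κ] [Fintype μ]
  [DecidableEq μ]

/-- The least height at the exposed rows `E`. -/
noncomputable def phi (L : ℕ) (B : Matrix ι ι ℤ) (Λ : Submodule ℤ (ι → ℤ)) (E : Finset ι) : ℝ :=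
  height (Fintype.card ι) L (minLat L B Λ E)

lemma phi_le (L : ℕ) (B : Matrix ι ι ℤ) (Λ : Submodule ℤ (ι → ℤ)) (E : Finset ι)
    {Y : Submodule ℤ (E → ℤ)} (h : imgL B Λ E ≤ Y) :
    phi L B Λ E ≤ height (Fintype.card ι) L Y := (minLat_spec L B Λ E).2 Y h

lemma phi_pos (L : ℕ) (B : Matrix ι ι ℤ) (Λ : Submodule ℤ (ι → ℤ)) (E : Finset ι)
    (hm : 1 ≤ Fintype.card ι) : 0 < phi L B Λ E := height_pos hm L _

/-- The height at least that of the bottom lattice. -/
lemma one_le_height {m : ℕ} (hm : 1 ≤ m) (K : ℕ) (Y : Submodule ℤ (κ → ℤ)) :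
    1 ≤ height m K Y :=
  one_le_mul_of_one_le_of_one_le (one_le_pow₀ (by exact_mod_cast hm)) (one_le_gdet Y)

/-- A map contracting the Euclidean norm up to `β` raises the Gram determinant by at most `β` per
dimension. -/
lemma gdet_mapL_le (F : Matrix μ κ ℤ) {β : ℝ}
    (hle : ∀ x : κ → ℝ, (toR F *ᵥ x) ⬝ᵥ (toR F *ᵥ x) ≤ β * (x ⬝ᵥ x))
    (U : Submodule ℤ (κ → ℤ)) :
    gdet 1 (mapL F U) ≤ β ^ finrank ℤ (mapL F U) * gdet 1 U := by
  have h := gdet_ker_image (G := (1 : Matrix κ κ ℝ)) PosDef.one (H := (1 : Matrix μ μ ℝ))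
    PosDef.one F (β := β) (fun x => by simpa using hle x) U
  exact le_trans (le_mul_of_one_le_left (gdet_pos PosDef.one _).le (one_le_gdet _)) h

/-- The coordinates in `E` of the rows in `E'`. -/
def restrMat {E E' : Finset ι} (h : E ⊆ E') : Matrix E E' ℤ :=
  (1 : Matrix E' E' ℤ).submatrix (fun l => ⟨l.1, h l.2⟩) id

lemma restrMat_mulVec {E E' : Finset ι} (h : E ⊆ E') (y : E' → ℤ) (l : E) :
    (restrMat h).mulVec y l = y ⟨l.1, h l.2⟩ := by
  simp [restrMat, mulVec, dotProduct, Matrix.one_apply]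

lemma toR_restrMat_mulVec {E E' : Finset ι} (h : E ⊆ E') (y : E' → ℝ) (l : E) :
    (toR (restrMat h) *ᵥ y) l = y ⟨l.1, h l.2⟩ := by
  simp [toR, restrMat, mulVec, dotProduct, Matrix.one_apply]

lemma restrMat_contract {E E' : Finset ι} (h : E ⊆ E') (y : E' → ℝ) :
    (toR (restrMat h) *ᵥ y) ⬝ᵥ (toR (restrMat h) *ᵥ y) ≤ y ⬝ᵥ y := by
  simp only [dotProduct, toR_restrMat_mulVec]
  have e : ∑ l : E, y ⟨l.1, h l.2⟩ * y ⟨l.1, h l.2⟩ =
      ∑ t ∈ (univ : Finset E).image (fun l : E => (⟨l.1, h l.2⟩ : E')), y t * y t := by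
    rw [Finset.sum_image]
    intro a _ b _ hab
    exact Subtype.ext (congrArg (fun t : E' => t.1) hab)
  rw [e]
  exact sum_le_sum_of_subset_of_nonneg (subset_univ _) fun t _ _ => mul_self_nonneg _

lemma imgL_le_mapL {B : Matrix ι ι ℤ} {Λ : Submodule ℤ (ι → ℤ)} {E E' : Finset ι} (h : E ⊆ E')
    {Y : Submodule ℤ (E' → ℤ)} (hY : imgL B Λ E' ≤ Y) :
    imgL B Λ E ≤ mapL (restrMat h) Y := by
  rintro _ ⟨x, hx, rfl⟩
  refine ⟨(rowMat B E').mulVec x, hY ⟨x, hx, rfl⟩, ?_⟩
  funext l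
  rw [mulVecLin_apply, mulVecLin_apply, restrMat_mulVec]
  rfl

lemma finrank_mapL_le (F : Matrix μ κ ℤ) (U : Submodule ℤ (κ → ℤ)) :
    finrank ℤ (mapL F U) ≤ finrank ℤ U := by
  rw [finrank_split U F]; omega

lemma gdet_restr_le {E E' : Finset ι} (h : E ⊆ E') (Y : Submodule ℤ (E' → ℤ)) :
    gdet 1 (mapL (restrMat h) Y) ≤ gdet 1 Y := by
  simpa using gdet_mapL_le (restrMat h) (β := 1)
    (fun x => by simpa using restrMat_contract h x) Y

lemma height_restr_le {m : ℕ} (hm : 1 ≤ m) (K : ℕ) {E E' : Finset ι} (h : E ⊆ E')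
    (Y : Submodule ℤ (E' → ℤ)) : height m K (mapL (restrMat h) Y) ≤ height m K Y :=
  mul_le_mul (pow_le_pow_right₀ (by exact_mod_cast hm)
    (Nat.mul_le_mul_left _ (finrank_mapL_le _ _))) (gdet_restr_le h Y)
    (gdet_pos PosDef.one _).le (by positivity)

/-- The least height grows with the exposed rows. -/
lemma phi_mono (L : ℕ) (B : Matrix ι ι ℤ) (Λ : Submodule ℤ (ι → ℤ)) {E E' : Finset ι}
    (h : E ⊆ E') (hm : 1 ≤ Fintype.card ι) : phi L B Λ E ≤ phi L B Λ E' :=
  (phi_le L B Λ E (imgL_le_mapL h (minLat_spec L B Λ E').1)).trans (height_restr_le hm L h _)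

/-- The index of a sublattice annihilates the quotient. -/
lemma relIndex_smul_mem {N M : Submodule ℤ (κ → ℤ)} {s : κ → ℤ} (hs : s ∈ M) :
    ((N.toAddSubgroup.relIndex M.toAddSubgroup : ℕ) : ℤ) • s ∈ N := by
  have h := AddSubgroup.nsmul_index_mem
    (N.toAddSubgroup.addSubgroupOf M.toAddSubgroup) (⟨s, hs⟩ : M.toAddSubgroup)
  rw [AddSubgroup.mem_addSubgroupOf] at h
  rw [natCast_zsmul]
  simpa [AddSubgroup.relIndex] using h

/-- A lattice projecting injectively, dropping one coordinate, is the graph of a functional; the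
functional is controlled by the two Gram determinants. -/
lemma exists_graph {E : Finset ι} {i : ι} (hi : i ∉ E) (Y : Submodule ℤ (↥(insert i E) → ℤ))
    (hr : finrank ℤ (mapL (restrMat (subset_insert i E)) Y) = finrank ℤ Y) :
    ∃ ψ : E → ℝ,
      gdet 1 Y = gdet 1 (mapL (restrMat (subset_insert i E)) Y) * (1 + ψ ⬝ᵥ ψ) ∧
      ∀ y ∈ Y, ∑ l, ψ l * (((restrMat (subset_insert i E)).mulVec y l : ℤ) : ℝ) =
        (y ⟨i, mem_insert_self i E⟩ : ℝ) := by
  set F := restrMat (subset_insert i E) with hF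
  have hker : ∀ u ∈ Y, F.mulVec u = 0 → u = 0 := by
    intro u hu h0
    have h1 : finrank ℤ (Y ⊓ kerL F : Submodule ℤ (↥(insert i E) → ℤ)) = 0 := by
      have := finrank_split Y F
      omega
    have h2 : u ∈ Y ⊓ kerL F := ⟨hu, h0⟩
    rw [Submodule.finrank_eq_zero.1 h1] at h2
    exact (Submodule.mem_bot ℤ).1 h2
  set A := basisMat Y with hA
  have hX : IsBasisMat (F * A) (mapL F Y) := (isBasisMat_basisMat Y).map F hker
  set X := toR (F * A) with hXdef
  set G := Xᵀ * X with hG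
  have hGpd : G.PosDef := by
    have := gram_posDef (G := (1 : Matrix E E ℝ)) PosDef.one (toR_injective hX.1)
    rwa [Matrix.mul_one] at this
  set i' : ↥(insert i E) := ⟨i, mem_insert_self i E⟩ with hi'
  set t : Fin (finrank ℤ Y) → ℝ := fun c => (A i' c : ℝ) with ht
  set ψ : E → ℝ := X *ᵥ (G⁻¹ *ᵥ t) with hψ
  have hunit : IsUnit G.det := hGpd.det_pos.ne'.isUnit
  have hGψ : Xᵀ *ᵥ ψ = t := by
    rw [hψ, mulVec_mulVec, mulVec_mulVec, ← hG, mul_nonsing_inv _ hunit, one_mulVec]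
  have hψψ : ψ ⬝ᵥ ψ = t ⬝ᵥ G⁻¹ *ᵥ t := by
    nth_rewrite 2 [hψ]
    rw [dotProduct_mulVec, ← mulVec_transpose, hGψ]
  refine ⟨ψ, ?_, ?_⟩
  · rw [gdet, gdet_eq 1 hX, Matrix.mul_one, Matrix.mul_one, ← hXdef, ← hA, ← hG, hψψ]
    have e : (toR A)ᵀ * toR A = G + replicateCol Unit t * replicateRow Unit t := by
      ext a b
      simp only [Matrix.mul_apply, Matrix.add_apply, transpose_apply, hG, hXdef, toR,
        Matrix.map_apply, replicateCol_apply, replicateRow_apply, Finset.univ_unique,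
        Finset.sum_singleton, ht]
      have e1 : ∀ (l : E) c, (((∑ r, F l r * A r c) : ℤ) : ℝ) =
          (A ⟨l.1, subset_insert i E l.2⟩ c : ℝ) := fun l c => by
        rw [show (∑ r, F l r * A r c) = A ⟨l.1, subset_insert i E l.2⟩ c from
          restrMat_mulVec (subset_insert i E) (fun r => A r c) l]
      simp only [e1]
      rw [← Finset.sum_erase_add univ _ (mem_univ i')]
      congr 1
      refine Finset.sum_bij' (fun r hr => ⟨r.1, ?_⟩)
        (fun l _ => (⟨l.1, subset_insert i E l.2⟩ : ↥(insert i E))) (fun _ _ => mem_univ _)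
        (fun l _ => ?_) (fun _ _ => rfl) (fun _ _ => rfl) (fun _ _ => rfl)
      · rcases mem_insert.1 r.2 with h | h
        · exact absurd (Subtype.ext h) (ne_of_mem_erase hr)
        · exact h
      · refine mem_erase.2 ⟨fun h => hi ?_, mem_univ _⟩
        have h' : l.1 = i := congrArg Subtype.val h
        exact h' ▸ l.2
    rw [e, det_add_replicateCol_mul_replicateRow hunit]
    congr 1
    rw [det_unique]
    simp [Matrix.mul_apply, dotProduct, mulVec, Finset.mul_sum, Finset.sum_mul]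
    rw [Finset.sum_comm]
    simp [mul_comm, mul_left_comm]
  · intro y hy
    rw [← (isBasisMat_basisMat Y).2] at hy
    obtain ⟨a, rfl⟩ := hy
    rw [mulVecLin_apply, ← hA, mulVec_mulVec]
    calc ∑ l, ψ l * (((F * A).mulVec a l : ℤ) : ℝ)
        = ψ ⬝ᵥ X *ᵥ (fun c => (a c : ℝ)) := by
          simp [dotProduct, hXdef, toR, mulVec, Matrix.map_apply]
      _ = t ⬝ᵥ fun c => (a c : ℝ) := by rw [dotProduct_mulVec, ← mulVec_transpose, hGψ]
      _ = _ := by simp [dotProduct, ht, mulVec]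

/-- The next row either raises the least height by `m^(2L)` or is good. -/
lemma phi_step {L : ℕ} (hL : 1 ≤ L) (B : Matrix ι ι ℤ) (hm : 2 ≤ Fintype.card ι)
    (Λ : Submodule ℤ (ι → ℤ)) (E : Finset ι) {i : ι} (hi : i ∉ E) :
    (Fintype.card ι : ℝ) ^ (2 * L) * phi L B Λ E ≤ phi L B Λ (insert i E) ∨
      ∃ k, GoodAt L B Λ E i k := by
  refine or_iff_not_imp_left.2 fun hlt => ?_
  rw [not_le] at hlt
  set m := Fintype.card ι with hmdef
  have hm1 : (1 : ℝ) < m := by exact_mod_cast hm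
  have hm0 : (0 : ℝ) < m := by linarith
  set hE := subset_insert i E
  set Y := minLat L B Λ (insert i E) with hY
  set X := mapL (restrMat hE) Y with hX
  have hXadm : imgL B Λ E ≤ X := imgL_le_mapL hE (minLat_spec L B Λ (insert i E)).1
  have hφX : phi L B Λ E ≤ height m L X := phi_le L B Λ E hXadm
  have hφ' : phi L B Λ (insert i E) = (m : ℝ) ^ (2 * L * finrank ℤ Y) * gdet 1 Y := rfl
  have hgX : 0 < gdet 1 X := gdet_pos PosDef.one X
  -- the rank does not drop
  have hr : finrank ℤ X = finrank ℤ Y := by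
    refine le_antisymm (finrank_mapL_le _ _) (not_lt.1 fun h => not_le.2 hlt ?_)
    calc (m : ℝ) ^ (2 * L) * phi L B Λ E ≤ (m : ℝ) ^ (2 * L) * height m L X :=
          mul_le_mul_of_nonneg_left hφX (by positivity)
      _ = (m : ℝ) ^ (2 * L * (finrank ℤ X + 1)) * gdet 1 X := by
          simp only [height]; rw [mul_add, mul_one, pow_add]; ring
      _ ≤ phi L B Λ (insert i E) := by
          rw [hφ']
          exact mul_le_mul (pow_le_pow_right₀ hm1.le (Nat.mul_le_mul_left _ h))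
            (gdet_restr_le hE Y) hgX.le (by positivity)
  obtain ⟨ψ, hgY, hψ⟩ := exists_graph hi Y hr
  have hψ0 : 0 ≤ ψ ⬝ᵥ ψ := Finset.sum_nonneg fun l _ => mul_self_nonneg _
  have hYX : phi L B Λ (insert i E) = height m L X * (1 + ψ ⬝ᵥ ψ) := by
    rw [hφ', ← hr, hgY]; simp only [height, hX]; ring
  have hXlt : height m L X < (m : ℝ) ^ (2 * L) * phi L B Λ E :=
    lt_of_le_of_lt (le_mul_of_one_le_right (height_pos (by omega) L X).le (by linarith))
      (hYX ▸ hlt)
  -- the norm of the functional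
  have hnorm : ψ ⬝ᵥ ψ ≤ (m : ℝ) ^ (2 * L) := by
    have h1 : height m L X * (1 + ψ ⬝ᵥ ψ) < height m L X * (m : ℝ) ^ (2 * L) := by
      rw [← hYX, mul_comm (height m L X)]
      exact lt_of_lt_of_le hlt (mul_le_mul_of_nonneg_left hφX (by positivity))
    have := lt_of_mul_lt_mul_left h1 (height_pos (by omega) L X).le
    linarith
  -- adding the minimiser at slope `4L` keeps the rank and has small index
  set S := minLat (4 * L) B Λ E with hS
  have hSs := minLat_spec (4 * L) B Λ E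
  have hsup : height m (4 * L) (X ⊔ S) ≤ height m (4 * L) X := by
    refine le_of_mul_le_mul_right ?_ (height_pos (by omega : 1 ≤ m) (4 * L) S)
    calc height m (4 * L) (X ⊔ S) * height m (4 * L) S
        ≤ height m (4 * L) (X ⊔ S) * height m (4 * L) (X ⊓ S) :=
          mul_le_mul_of_nonneg_left (hSs.2 _ (le_inf hXadm hSs.1)) (height_pos (by omega) _ _).le
      _ ≤ _ := height_submodular m (4 * L) X S
  have hφW : phi L B Λ E ≤ (m : ℝ) ^ (2 * L * finrank ℤ (X ⊔ S : Submodule ℤ (E → ℤ))) *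
      gdet 1 (X ⊔ S) := phi_le L B Λ E (hXadm.trans le_sup_left)
  have hrW : finrank ℤ X = finrank ℤ (X ⊔ S : Submodule ℤ (E → ℤ)) := by
    refine le_antisymm (Submodule.finrank_mono le_sup_left) (not_lt.1 fun h => ?_)
    set r := finrank ℤ X
    set r' := finrank ℤ (X ⊔ S : Submodule ℤ (E → ℤ))
    have h6 : 6 * L * (r + 1) ≤ 6 * L * r' := Nat.mul_le_mul_left _ h
    have h1 : phi L B Λ E * (m : ℝ) ^ (6 * L * r') < phi L B Λ E * (m : ℝ) ^ (6 * L * r + 2 * L) :=
      calc phi L B Λ E * (m : ℝ) ^ (6 * L * r')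
          ≤ ((m : ℝ) ^ (2 * L * r') * gdet 1 (X ⊔ S)) * (m : ℝ) ^ (6 * L * r') :=
            mul_le_mul_of_nonneg_right hφW (by positivity)
        _ = height m (4 * L) (X ⊔ S) := by
            simp only [height, r', show 2 * (4 * L) = 2 * L + 6 * L by ring, add_mul, pow_add]
            ring
        _ ≤ height m (4 * L) X := hsup
        _ = (m : ℝ) ^ (6 * L * r) * height m L X := by
            simp only [height, r, show 2 * (4 * L) = 2 * L + 6 * L by ring, add_mul, pow_add]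
            ring
        _ < (m : ℝ) ^ (6 * L * r) * ((m : ℝ) ^ (2 * L) * phi L B Λ E) :=
            mul_lt_mul_of_pos_left hXlt (by positivity)
        _ = _ := by rw [pow_add]; ring
    have h2 := (pow_lt_pow_iff_right₀ hm1).1
      (lt_of_mul_lt_mul_left h1 (phi_pos L B Λ E (by omega)).le)
    rw [mul_add, mul_one] at h6
    omega
  set k := X.toAddSubgroup.relIndex (X ⊔ S).toAddSubgroup with hk
  have hidx : gdet 1 X = (k : ℝ) ^ 2 * gdet 1 (X ⊔ S) := gdet_eq_index 1 le_sup_left hrW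
  have hk1 : 1 ≤ k := Nat.one_le_iff_ne_zero.2 fun h => by simp [h] at hidx; linarith
  have hklt : (k : ℝ) < (m : ℝ) ^ L := by
    have h1 : (k : ℝ) ^ 2 * phi L B Λ E < ((m : ℝ) ^ L) ^ 2 * phi L B Λ E :=
      calc (k : ℝ) ^ 2 * phi L B Λ E
          ≤ (k : ℝ) ^ 2 * ((m : ℝ) ^ (2 * L * finrank ℤ (X ⊔ S : Submodule ℤ (E → ℤ))) *
              gdet 1 (X ⊔ S)) := mul_le_mul_of_nonneg_left hφW (sq_nonneg _)
        _ = height m L X := by rw [height, hrW, hidx]; ring
        _ < _ := by rwa [← pow_mul, mul_comm L 2]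
    exact lt_of_pow_lt_pow_left₀ 2 (by positivity)
      (lt_of_mul_lt_mul_right h1 (phi_pos L B Λ E (by omega)).le)
  refine ⟨k, hk1, hklt, ψ, hnorm, fun s hs => ?_, fun x hx => ?_⟩
  · obtain ⟨y, hy, hys⟩ := relIndex_smul_mem (N := X) (M := X ⊔ S)
      (Submodule.mem_sup_right (S := X) hs)
    refine ⟨y ⟨i, mem_insert_self i E⟩, ?_⟩
    rw [← hψ y hy, Finset.mul_sum]
    refine Finset.sum_congr rfl fun l _ => ?_
    rw [show (restrMat hE).mulVec y l = ((k : ℤ) • s) l from congrFun hys l, Pi.smul_apply,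
      smul_eq_mul, Int.cast_mul, Int.cast_natCast]
    ring
  · have hy : (rowMat B (insert i E)).mulVec x ∈ Y :=
      (minLat_spec L B Λ (insert i E)).1 ⟨x, hx, rfl⟩
    have := hψ _ hy
    have e : (restrMat hE).mulVec ((rowMat B (insert i E)).mulVec x) =
        (rowMat B E).mulVec x := by
      funext l; rw [restrMat_mulVec]; rfl
    rw [e] at this
    exact this

end Vale.Agent.P160R.Five
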